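import Mathlib
import Vale.Agent.Lib.P237.helper98.Defs
import Vale.Agent.Lib.P237.helper1.FrDefs
import Vale.Agent.Lib.P237.helper1.FrFinal
import Vale.Agent.Lib.P237.helper17.FrVol
import Vale.Agent.Lib.P237.helper98.ProdStrict

/-!
# P237: truncated cones in `R^3` and products in every dimension, in one theorem

This repeats, word for word, the statements of the hand-ins `FrustumPetty` and `ProductPetty`
of this folder as the two conjuncts of one theorem; it adds no mathematics.

* (A) Truncated cones in `R^3`.  For a compact convex planar set `D`, `0 ≤ lam ≤ 1`, a planar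
  vector `c` and `h ≥ 0`, the body `K = frustum D lam c h` (the union of the segments from
  `(d, 0)` to `(lam d + c, h)`, `d ∈ D`: a right prism for `lam = 1`, `c = 0`, an oblique prism
  for `lam = 1`, a cone for `lam = 0`) satisfies `|Π K| ≥ 8 |K|^2`, hence Petty's conjectured
  bound `|Π K| ≥ (3 π^2 / 4) |K|^2`, strictly when `|K| > 0`.  Here `Π K` is `projBody K`, the
  set of `x` with `⟪x, u⟫ ≤ vol_2 (proj_{u^⊥} K)` for all unit `u`.
* (B) Products, in every dimension.  For compact convex `K1 ⊆ R^a`, `K2 ⊆ R^b` (`a, b ≥ 1`):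
  `|Π (K1 × K2)| ≥ |K2|^a |K1|^b |Π K1| |Π K2|`, and if `K1` and `K2` satisfy Petty's
  inequality then so does `K1 × K2`; Petty's inequality holds for every set of the class
  `ProdClass` (the finite products of planar compact convex sets and segments), strictly when
  the dimension is at least `3` and the volume is positive.  Here `R^N` is `Fin N → ℝ` and
  `Π K` is `projBodyN K = {x | ∀ u, dotN x u ≤ vol (K + [0, u]) - vol K}` (for a convex body
  the right-hand side is the support function of the projection body).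
-/

namespace Vale.Agent.Results.P237.FrustumAndProducts

open MeasureTheory Vale.Agent.Lib.P237

theorem result :
    (∀ (D : Set (ℝ × ℝ)), IsCompact D → Convex ℝ D → ∀ (lam : ℝ), 0 ≤ lam → lam ≤ 1 →
      ∀ (c : ℝ × ℝ) (h : ℝ), 0 ≤ h →
        8 * volume (frustum D lam c h) ^ 2 ≤ volume (projBody (frustum D lam c h)) ∧
        ENNReal.ofReal (3 * Real.pi ^ 2 / 4) * volume (frustum D lam c h) ^ 2
          ≤ volume (projBody (frustum D lam c h)) ∧
        (0 < volume (frustum D lam c h) →
          ENNReal.ofReal (3 * Real.pi ^ 2 / 4) * volume (frustum D lam c h) ^ 2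
            < volume (projBody (frustum D lam c h)))) ∧
    ((∀ (a b : ℕ) (K1 : Set (Fin a → ℝ)) (K2 : Set (Fin b → ℝ)), 1 ≤ a → 1 ≤ b →
        IsCompact K1 → Convex ℝ K1 → IsCompact K2 → Convex ℝ K2 →
        volN K2 ^ a * volN K1 ^ b * volN (projBodyN K1) * volN (projBodyN K2)
            ≤ volN (projBodyN (prodN K1 K2)) ∧
          (pettyN a K1 → pettyN b K2 → pettyN (a + b) (prodN K1 K2))) ∧
      (∀ (N : ℕ) (K : Set (Fin N → ℝ)), ProdClass N K → pettyN N K) ∧
      (∀ (N : ℕ) (K : Set (Fin N → ℝ)), ProdClass N K → 3 ≤ N → 0 < volN K →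
        kappa (N - 1) ^ N * volN K ^ (N - 1) < kappa N ^ (N - 2) * volN (projBodyN K))) := by
  refine ⟨?_, ?_⟩
  · -- (A): the proof of `FrustumPetty.result`
    intro D hDc hDv lam hl0 hl1 c h hh
    have h8 := H1.frustum_petty D hDc hDv lam hl0 hl1 c h hh
    have hpi : 3 * Real.pi ^ 2 / 4 < 8 := by
      have h1 := Real.pi_lt_d2
      have h2 := Real.pi_pos
      nlinarith
    have e8 : ENNReal.ofReal (3 * Real.pi ^ 2 / 4) < 8 := by
      have h3 := (ENNReal.ofReal_lt_ofReal_iff (by norm_num : (0 : ℝ) < 8)).2 hpi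
      simpa using h3
    refine ⟨h8, le_trans ?_ h8, fun hpos => lt_of_lt_of_le ?_ h8⟩
    · exact mul_le_mul_left (le_of_lt e8) _
    · have hfin : volume (frustum D lam c h) ≠ ⊤ := by
        refine ne_top_of_le_ne_top ?_ (H17.vol_frustum_le D hDc lam hl0 hl1 c h hh)
        exact ENNReal.mul_ne_top ENNReal.ofReal_ne_top hDc.measure_lt_top.ne
      have hx0 : volume (frustum D lam c h) ^ 2 ≠ 0 := pow_ne_zero 2 hpos.ne'
      have hxt : volume (frustum D lam c h) ^ 2 ≠ ⊤ := ENNReal.pow_ne_top hfin
      exact (ENNReal.mul_lt_mul_iff_left hx0 hxt).2 e8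
  · -- (B): the proof of `ProductPetty.result`
    exact ⟨fun _ _ K1 K2 ha hb hK1 hK1v hK2 hK2v =>
      ⟨prodN_main K1 K2 hK1 hK1v hK2 hK2v, prodN_petty ha hb K1 K2 hK1 hK1v hK2 hK2v⟩,
      prodClass_petty, prodClass_petty_lt⟩

end Vale.Agent.Results.P237.FrustumAndProducts
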