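import Mathlib
import Vale.Agent.Lib.P237.helper98.Defs
import Vale.Agent.Lib.P237.helper1.FrDefs
import Vale.Agent.Lib.P237.helper1.FrFinal
import Vale.Agent.Lib.P237.helper17.FrVol

namespace Vale.Agent.Results.P237.FrustumPetty

open MeasureTheory Vale.Agent.Lib.P237

/-- Petty's projection-volume inequality for truncated cones (frusta) in `R^3`.  Let `D` be a
compact convex planar set, `0 ≤ lam ≤ 1`, `c` a planar vector, `h ≥ 0`, and let
`K = frustum D lam c h` be the union of the segments from `(d, 0)` to `(lam d + c, h)`, `d ∈ D`,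
that is the convex hull of the bottom face `D × {0}` and the homothetic top face
`(lam D + c) × {h}`: a right prism for `lam = 1`, `c = 0`, an oblique prism for `lam = 1`, a cone
with apex `(c, h)` over `D` for `lam = 0`.  Then the projection body `projBody K` (the set of `x`
with `⟪x, u⟫ ≤ vol_2 (proj_{u^⊥} K)` for all unit `u`) satisfies `|Π K| ≥ 8 |K|^2`; in
particular Petty's conjectured bound `|Π K| ≥ (3 π^2 / 4) |K|^2 = κ_2^3 κ_3^{-1} |K|^2` holds,
and it is strict as soon as `|K| > 0` (no such body is an equality case). -/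
theorem result (D : Set (ℝ × ℝ)) (hDc : IsCompact D) (hDv : Convex ℝ D) (lam : ℝ)
    (hl0 : 0 ≤ lam) (hl1 : lam ≤ 1) (c : ℝ × ℝ) (h : ℝ) (hh : 0 ≤ h) :
    8 * volume (frustum D lam c h) ^ 2 ≤ volume (projBody (frustum D lam c h)) ∧
      ENNReal.ofReal (3 * Real.pi ^ 2 / 4) * volume (frustum D lam c h) ^ 2
        ≤ volume (projBody (frustum D lam c h)) ∧
      (0 < volume (frustum D lam c h) →
        ENNReal.ofReal (3 * Real.pi ^ 2 / 4) * volume (frustum D lam c h) ^ 2
          < volume (projBody (frustum D lam c h))) := by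
  have h8 := H1.frustum_petty D hDc hDv lam hl0 hl1 c h hh
  have hpi : 3 * Real.pi ^ 2 / 4 < 8 := by
    have h1 := Real.pi_lt_d2
    have h2 := Real.pi_pos
    nlinarith
  have e8 : ENNReal.ofReal (3 * Real.pi ^ 2 / 4) < 8 := by
    have h3 := (ENNReal.ofReal_lt_ofReal_iff (by norm_num : (0 : ℝ) < 8)).2 hpi
    simpa using h3
  refine ⟨h8, le_trans ?_ h8, fun hpos => lt_of_lt_of_le ?_ h8⟩
  · exact mul_le_mul_left (le_of_lt e8) _
  · have hfin : volume (frustum D lam c h) ≠ ⊤ := by
      refine ne_top_of_le_ne_top ?_ (H17.vol_frustum_le D hDc lam hl0 hl1 c h hh)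
      exact ENNReal.mul_ne_top ENNReal.ofReal_ne_top hDc.measure_lt_top.ne
    have hx0 : volume (frustum D lam c h) ^ 2 ≠ 0 := pow_ne_zero 2 hpos.ne'
    have hxt : volume (frustum D lam c h) ^ 2 ≠ ⊤ := ENNReal.pow_ne_top hfin
    exact (ENNReal.mul_lt_mul_iff_left hx0 hxt).2 e8

end Vale.Agent.Results.P237.FrustumPetty
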