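import Mathlib
import Vale.Agent.Lib.P237.helper98.Defs
import Vale.Agent.Lib.P237.helper98.Prism
import Vale.Agent.Lib.P237.helper98.Mono
import Vale.Agent.Lib.P237.helper98.Shift

namespace Vale.Agent.Results.P237.NearPrisms

open MeasureTheory Vale.Agent.Lib.P237

/-- Petty's projection-volume inequality in `R^3` for bodies close to a right prism.  Let
`K` be a compact subset of `R^3` containing the right prism
`L = prismAt D c h = {x : (x_0, x_1) ∈ D, c ≤ x_2 ≤ c + h}` over a compact convex planar set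
`D`, with `h ≥ 0`.  Then `|Π K| ≥ 8 |L|^2`.  If moreover `|K| ≤ 1.039 |L|` (the prism fills
at least 96.25 percent of `K`), then Petty's conjectured bound `|Π K| ≥ (3 π^2 / 4) |K|^2`
holds for `K`, with strict inequality when `|K| > 0`.  The case `K = L` is the inequality
for right prisms. -/
theorem result (K : Set E3) (hKc : IsCompact K) (D : Set (ℝ × ℝ)) (hDc : IsCompact D)
    (hDv : Convex ℝ D) (c h : ℝ) (hh : 0 ≤ h) (hsub : prismAt D c h ⊆ K) :
    8 * volume (prismAt D c h) ^ 2 ≤ volume (projBody K) ∧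
      (volume K ≤ ENNReal.ofReal (1039 / 1000) * volume (prismAt D c h) →
        ENNReal.ofReal (3 * Real.pi ^ 2 / 4) * volume K ^ 2 ≤ volume (projBody K) ∧
        (0 < volume K →
          ENNReal.ofReal (3 * Real.pi ^ 2 / 4) * volume K ^ 2 < volume (projBody K))) := by
  rw [prismAt_volume]
  have hsub' := prism_subset_of_prismAt D c h hsub
  have hK' := isCompact_preimage_add hKc (EuclideanSpace.single (2 : Fin 3) c)
  have h8 : 8 * volume (prism D h) ^ 2 ≤ volume (projBody K) := by
    have h1 := le_trans (prism_petty D hDc hDv h hh) (measure_mono (projBody_mono hsub' hK'))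
    rwa [projBody_add] at h1
  refine ⟨h8, fun hvol => ?_⟩
  have hpi : 3 * Real.pi ^ 2 / 4 * (1039 / 1000) ^ 2 < 8 := by
    have h1 := Real.pi_lt_d4
    have h2 := Real.pi_pos
    nlinarith
  have hpi0 : (0 : ℝ) ≤ 3 * Real.pi ^ 2 / 4 := by positivity
  have hc : ENNReal.ofReal (3 * Real.pi ^ 2 / 4) * ENNReal.ofReal (1039 / 1000) ^ 2 < 8 := by
    rw [← ENNReal.ofReal_pow (by norm_num), ← ENNReal.ofReal_mul hpi0]
    have h3 := (ENNReal.ofReal_lt_ofReal_iff (by norm_num : (0 : ℝ) < 8)).2 hpi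
    simpa using h3
  have hsq : volume K ^ 2 ≤ ENNReal.ofReal (1039 / 1000) ^ 2 * volume (prism D h) ^ 2 := by
    rw [← mul_pow]
    exact pow_le_pow_left₀ zero_le hvol 2
  have hle : ENNReal.ofReal (3 * Real.pi ^ 2 / 4) * volume K ^ 2
      ≤ (ENNReal.ofReal (3 * Real.pi ^ 2 / 4) * ENNReal.ofReal (1039 / 1000) ^ 2)
        * volume (prism D h) ^ 2 := by
    rw [mul_assoc]
    exact mul_le_mul_right hsq _
  refine ⟨le_trans hle (le_trans (mul_le_mul_left (le_of_lt hc) _) h8), fun hpos => ?_⟩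
  have hPfin : volume (prism D h) ≠ ⊤ := by
    rw [vol_prism D hDc.measurableSet h]
    exact ENNReal.mul_ne_top ENNReal.ofReal_ne_top hDc.measure_lt_top.ne
  have hP0 : volume (prism D h) ≠ 0 := by
    intro h0
    rw [h0, mul_zero] at hvol
    exact hpos.ne' (le_antisymm hvol zero_le)
  have hx0 : volume (prism D h) ^ 2 ≠ 0 := pow_ne_zero 2 hP0
  have hxt : volume (prism D h) ^ 2 ≠ ⊤ := ENNReal.pow_ne_top hPfin
  exact lt_of_le_of_lt hle (lt_of_lt_of_le ((ENNReal.mul_lt_mul_iff_left hx0 hxt).2 hc) h8)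

end Vale.Agent.Results.P237.NearPrisms
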