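import Mathlib
import Vale.Agent.Lib.P237.helper98.ProdStrict

namespace Vale.Agent.Results.P237.ProductPetty

open MeasureTheory Set Vale.Agent.Lib.P237

/-- Petty's projection-volume inequality and Cartesian products, in every dimension.
`R^N` is `Fin N → ℝ` with Lebesgue measure `volN` and the dot product `dotN`; `kappa m` is the
volume of the Euclidean unit ball of `R^m`; `prodN K1 K2` is the product `K1 × K2` in
`R^(a+b)`; the projection body is taken in the form
`projBodyN K = {x | ∀ u, dotN x u ≤ vol (K + [0, u]) - vol K}` (for a convex body the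
right-hand side is the support function of the projection body); `pettyN N K` is Petty's
inequality `κ_(N-1)^N κ_N^2 |K|^(N-1) ≤ κ_N^N |Π K|`.

For compact convex `K1 ⊆ R^a`, `K2 ⊆ R^b` (`a, b ≥ 1`):
`|Π (K1 × K2)| ≥ |K2|^a |K1|^b |Π K1| |Π K2|`, and if `K1` and `K2` satisfy Petty's inequality
then so does `K1 × K2`.  Consequently Petty's inequality holds for every set of the class
`ProdClass`, the finite products of planar compact convex sets and segments; for such a set of
dimension `N ≥ 3` and positive volume it holds strictly: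
`κ_(N-1)^N |K|^(N-1) < κ_N^(N-2) |Π K|`. -/
theorem result :
    (∀ (a b : ℕ) (K1 : Set (Fin a → ℝ)) (K2 : Set (Fin b → ℝ)), 1 ≤ a → 1 ≤ b →
        IsCompact K1 → Convex ℝ K1 → IsCompact K2 → Convex ℝ K2 →
        volN K2 ^ a * volN K1 ^ b * volN (projBodyN K1) * volN (projBodyN K2)
            ≤ volN (projBodyN (prodN K1 K2)) ∧
          (pettyN a K1 → pettyN b K2 → pettyN (a + b) (prodN K1 K2))) ∧
      (∀ (N : ℕ) (K : Set (Fin N → ℝ)), ProdClass N K → pettyN N K) ∧
      (∀ (N : ℕ) (K : Set (Fin N → ℝ)), ProdClass N K → 3 ≤ N → 0 < volN K →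
        kappa (N - 1) ^ N * volN K ^ (N - 1) < kappa N ^ (N - 2) * volN (projBodyN K)) :=
  ⟨fun _ _ K1 K2 ha hb hK1 hK1v hK2 hK2v =>
    ⟨prodN_main K1 K2 hK1 hK1v hK2 hK2v, prodN_petty ha hb K1 K2 hK1 hK1v hK2 hK2v⟩,
    prodClass_petty, prodClass_petty_lt⟩

end Vale.Agent.Results.P237.ProductPetty
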